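import Mathlib
import Vale.Agent.P052.Checks

namespace Vale.Agent.Results.P052.Dim63

theorem result :
    ∃ Y : Set (EuclideanSpace ℝ (Fin 63)), Y.Finite ∧ Bornology.IsBounded Y ∧ 0 < Metric.diam Y ∧
      ∀ (n : ℕ) (P : Fin n → Set (EuclideanSpace ℝ (Fin 63))), Y = ⋃ k, P k →
        (∀ k, Metric.diam (P k) < Metric.diam Y) → 65 ≤ n := by
  obtain ⟨Y, hfin, hpos, h⟩ := Vale.Agent.P052.borsuk63
  exact ⟨Y, hfin, hfin.isBounded, hpos, h⟩

end Vale.Agent.Results.P052.Dim63
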