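import Mathlib
import Vale.Agent.Results.P052.Dim63

namespace Vale.Agent.Results.P052.E_ConjectureFails63

/-- Borsuk's conjecture is false in dimension `63`: it is not true that every bounded set of
positive diameter in Euclidean `63`-space is a union of `64` sets of strictly smaller diameter. -/
theorem result :
    ¬ ∀ Y : Set (EuclideanSpace ℝ (Fin 63)), Bornology.IsBounded Y → 0 < Metric.diam Y →
        ∃ P : Fin 64 → Set (EuclideanSpace ℝ (Fin 63)),
          Y = ⋃ k, P k ∧ ∀ k, Metric.diam (P k) < Metric.diam Y := by
  intro h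
  obtain ⟨Y, _, hb, hpos, hY⟩ := Vale.Agent.Results.P052.Dim63.result
  obtain ⟨P, hP, hd⟩ := h Y hb hpos
  have := hY 64 P hP hd
  omega

end Vale.Agent.Results.P052.E_ConjectureFails63
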