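import Mathlib
import Vale.Agent.Results.P052.Dim63

namespace Vale.Agent.Results.P052.F_ArbitraryCovers

/-- Covering form, with the extended diameter (so that no convention about unbounded sets plays
any part): there is a finite set `Y` of positive diameter in Euclidean `63`-space such that every
covering of `Y` by `n` arbitrary subsets of the space, each of diameter strictly smaller than that
of `Y`, has `n ≥ 65`. -/
theorem result :
    ∃ Y : Set (EuclideanSpace ℝ (Fin 63)), Y.Finite ∧ 0 < Metric.ediam Y ∧ Metric.ediam Y < ⊤ ∧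
      ∀ (n : ℕ) (P : Fin n → Set (EuclideanSpace ℝ (Fin 63))), Y ⊆ ⋃ k, P k →
        (∀ k, Metric.ediam (P k) < Metric.ediam Y) → 65 ≤ n := by
  obtain ⟨Y, hfin, hb, hpos, hY⟩ := Vale.Agent.Results.P052.Dim63.result
  have htop : Metric.ediam Y ≠ ⊤ := hb.ediam_ne_top
  refine ⟨Y, hfin, ?_, lt_top_iff_ne_top.2 htop, ?_⟩
  · by_contra h
    have h0 : Metric.ediam Y = 0 := by simpa using h
    rw [Metric.diam, h0] at hpos
    simp at hpos
  · intro n P hcov hd
    apply hY n (fun k => P k ∩ Y)
    · ext y
      constructor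
      · intro hy
        obtain ⟨k, hk⟩ := Set.mem_iUnion.1 (hcov hy)
        exact Set.mem_iUnion.2 ⟨k, hk, hy⟩
      · intro hy
        obtain ⟨k, hk⟩ := Set.mem_iUnion.1 hy
        exact hk.2
    · intro k
      have h1 : Metric.ediam (P k ∩ Y) < Metric.ediam Y :=
        lt_of_le_of_lt (Metric.ediam_mono Set.inter_subset_left) (hd k)
      exact (ENNReal.toReal_lt_toReal (ne_top_of_lt h1) htop).2 h1

end Vale.Agent.Results.P052.F_ArbitraryCovers
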