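import Mathlib
import Vale.Agent.Results.P052.Dim63

namespace Vale.Agent.Results.P052.G_BorsukNumber

/-- In the vocabulary of the problem: there is a bounded set `Y` of positive diameter in Euclidean
`63`-space that is a union of finitely many subsets of smaller diameter and whose Borsuk number
`b(Y)`, the least number of such subsets, is at least `65`. -/
theorem result :
    ∃ Y : Set (EuclideanSpace ℝ (Fin 63)), Bornology.IsBounded Y ∧ 0 < Metric.diam Y ∧
      {n : ℕ | ∃ P : Fin n → Set (EuclideanSpace ℝ (Fin 63)),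
        Y = ⋃ k, P k ∧ ∀ k, Metric.diam (P k) < Metric.diam Y}.Nonempty ∧
      63 + 1 < sInf {n : ℕ | ∃ P : Fin n → Set (EuclideanSpace ℝ (Fin 63)),
        Y = ⋃ k, P k ∧ ∀ k, Metric.diam (P k) < Metric.diam Y} := by
  obtain ⟨Y, hfin, hb, hpos, hY⟩ := Vale.Agent.Results.P052.Dim63.result
  have hne : {n : ℕ | ∃ P : Fin n → Set (EuclideanSpace ℝ (Fin 63)),
        Y = ⋃ k, P k ∧ ∀ k, Metric.diam (P k) < Metric.diam Y}.Nonempty := by
    classical
    have : Fintype Y := hfin.fintype
    let e := Fintype.equivFin Y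
    refine ⟨Fintype.card Y, fun k => {((e.symm k : Y) : EuclideanSpace ℝ (Fin 63))}, ?_, ?_⟩
    · ext y
      constructor
      · intro hy
        refine Set.mem_iUnion.2 ⟨e ⟨y, hy⟩, ?_⟩
        simp
      · intro hy
        obtain ⟨k, hk⟩ := Set.mem_iUnion.1 hy
        rw [Set.mem_singleton_iff] at hk
        rw [hk]
        exact (e.symm k).2
    · intro k
      rw [Metric.diam_singleton]
      exact hpos
  refine ⟨Y, hb, hpos, hne, ?_⟩
  obtain ⟨P, hP, hd⟩ := Nat.sInf_mem hne
  have := hY _ P hP hd
  omega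

end Vale.Agent.Results.P052.G_BorsukNumber
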